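import Vale.Agent.P355.H947.UD.AA.Dt

namespace Vale.Agent.P355.H947.UD.AA

open Vale.Agent.P355 Vale.Agent.P355.H147 Vale.Agent.P355.H998.E Vale.Agent.P355.H129

def U0 : List ℕ := [nat_lit 0x20014fa,
 nat_lit 0x20014fa000002000000,
 nat_lit 0x201f5a9000002000000000002000000,
 nat_lit 0x200ec9f000002009802000002000000000002000000,
 nat_lit 0x200037f000002000c1d000002000c10000002000000000002000000,
 nat_lit 0x20014fa000002000000000002000000000002000000000002000000000002000000]

def L0 : List ℕ := [nat_lit 0x2000000000002000000000002000000000002000000000002000000000002479,
 nat_lit 0x2000000000002000000000002000000000002000000000002479000000002000,
 nat_lit 0x200000000000208a0000000026cb000000003660000000002000000000002000,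
 nat_lit 0x200000000000209d000000002dc4000000002000000000002000000000002000,
 nat_lit 0x200000000000215c000000002000000000002000000000002000000000002000,
 nat_lit 0x2479000000002000000000002000000000002000000000002000000000002000]

theorem psd0 : psdCk 48 26 14 12 (Nat.mul 6 1) 256 8192 33554432 64212 U0 L0 = true := by decide +kernel

def b0 : BD := ⟨1, U0, [0x10000010001010001000001010000010001010001000001], [0x101000100000100010100000101000100000100010100], [[0xc00000000000000000000000000030000000000000000003000000000c000000000000000000c0000000000000000000000000003000000000c00000000000000000000000000030000000000000000003000000000c000000000000000000c00000000000000000000000000030]], [[0x3000000000c000000000000000000c00000000000000000000000000030000000000000000003000000000c0000000000000000000000000003000000000c000000000000000000c00000000000000000000000000030000000000000000003000000000c0000000000]], [[0x6000000000000000000000000000180000000000000000018000000006000000000000000000600000000000000000000000000018000000006000000000000000000000000000180000000000000000018000000006000000000000000000600000000000000000000000000018]], [[0x1800000000600000000000000000060000000000000000000000000001800000000000000000180000000060000000000000000000000000001800000000600000000000000000060000000000000000000000000001800000000000000000180000000060000000000]]⟩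

theorem bk0 : b0.ck 24 G.nu 38 7 = true := by decide +kernel

end Vale.Agent.P355.H947.UD.AA
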