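import Vale.Agent.P355.H947.UD.AA.Dt

namespace Vale.Agent.P355.H947.UD.AA

open Vale.Agent.P355 Vale.Agent.P355.H147 Vale.Agent.P355.H998.E Vale.Agent.P355.H129

def U2 : List ℕ := [nat_lit 0x2029aec,
 nat_lit 0x2029aec000002000000,
 nat_lit 0x20c16ba000002000000000002000000,
 nat_lit 0x2029aec000002000000000002000000000002000000,
 nat_lit 0x200ed50000002000000000001fcc666000002000000000002000000,
 nat_lit 0x2029aec000001fe79ec000002000000000002055a3a000002000000000002000000]

def L2 : List ℕ := [nat_lit 0x40000000000040000000000040000000000040000000000040000000000059cc,
 nat_lit 0x40000000000040000000000040000000000040000000000059cc000000004000,
 nat_lit 0x58a300000000312800000000400000000000779e000000004000000000004000,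
 nat_lit 0x40000000000040000000000059cc000000004000000000004000000000004000,
 nat_lit 0x39cd0000000043ee000000004000000000004000000000004000000000004000,
 nat_lit 0x4479000000004000000000004000000000004000000000004000000000004000]

theorem psd2 : psdCk 48 26 15 13 (Nat.mul 6 1) 256 16384 33554432 99031 U2 L2 = true := by decide +kernel

def b2 : BD := ⟨1, U2, [0x101000100000100010100010000010001010001000001], [0x10000010001010001000001000101000100000100010100], [[0x3000000000c000000000000000000c00000000000000000000000000030000000000000000003000000000c000000000000000000c00000000000000000000000000030000000000000000003000000000c000000000000000000c00000000000000000000000000030]], [[0xc00000000000000000000000000030000000000000000003000000000c000000000000000000c00000000000000000000000000030000000000000000003000000000c000000000000000000c00000000000000000000000000030000000000000000003000000000c0000000000]], [[0x1800000000600000000000000000060000000000000000000000000001800000000000000000180000000060000000000000000006000000000000000000000000000180000000000000000018000000006000000000000000000600000000000000000000000000018]], [[0x6000000000000000000000000000180000000000000000018000000006000000000000000000600000000000000000000000000018000000000000000001800000000600000000000000000060000000000000000000000000001800000000000000000180000000060000000000]]⟩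

theorem bk2 : b2.ck 24 G.nu 38 7 = true := by decide +kernel

end Vale.Agent.P355.H947.UD.AA
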