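import Vale.Agent.P355.H947.UD.AA.Dt

namespace Vale.Agent.P355.H947.UD.AA

open Vale.Agent.P355 Vale.Agent.P355.H147 Vale.Agent.P355.H998.E Vale.Agent.P355.H129

def U6 : List ℕ := [nat_lit 0x201c511,
 nat_lit 0x201c511000002000000,
 nat_lit 0x201c511000002000000000002000000,
 nat_lit 0x201c511000002000000000002000000000002000000,
 nat_lit 0x200511f000002000000000001ff820d000002000000000002000000,
 nat_lit 0x201c511000002000000000002000000000002000000000002000000000002000000]

def L6 : List ℕ := [nat_lit 0x20000000000020000000000020000000000020000000000020000000000034f,
 nat_lit 0x20000000000020000000000020000000000020000000000034f000000000200,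
 nat_lit 0x2000000000001a000000000020000000000034f000000000200000000000200,
 nat_lit 0x20000000000020000000000034f000000000200000000000200000000000200,
 nat_lit 0x200000000000259000000000200000000000200000000000200000000000200,
 nat_lit 0x34f000000000200000000000200000000000200000000000200000000000200]

theorem psd6 : psdCk 48 26 10 8 (Nat.mul 6 1) 1 512 33554432 3624 U6 L6 = true := by decide +kernel

def b6 : BD := ⟨1, U6, [0x10101010101010101010101], [0x10101010101010101010101000000000000000000000000], [[0xc000000003000000000c000000003000000000c000000003000000000c000000003000000000c000000003000000000c0000000030]], [[0xc000000003000000000c000000003000000000c000000003000000000c000000003000000000c000000003000000000c0000000030000000000000000000000000000000000000000000000000000000000000000000000000000000000000000000000000000000000000000000]], [[0x6000000001800000000600000000180000000060000000018000000006000000001800000000600000000180000000060000000018]], [[0x6000000001800000000600000000180000000060000000018000000006000000001800000000600000000180000000060000000018000000000000000000000000000000000000000000000000000000000000000000000000000000000000000000000000000000000000000000]]⟩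

theorem bk6 : b6.ck 24 G.nu 38 7 = true := by decide +kernel

end Vale.Agent.P355.H947.UD.AA
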