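import Vale.Agent.P355.H947.UD.AA.Dt

namespace Vale.Agent.P355.H947.UD.AA

open Vale.Agent.P355 Vale.Agent.P355.H147 Vale.Agent.P355.H998.E Vale.Agent.P355.H129

def U7 : List ℕ := [nat_lit 0x2001156,
 nat_lit 0x200d8d4000001fffe49,
 nat_lit 0x2016b270000020074c2000001ffcf6e,
 nat_lit 0x200ecf100000200a22b000001fff8f2000001ffc17f,
 nat_lit 0x2003b29000001ffa784000001ffaee5000002000e5a000002001ac1,
 nat_lit 0x203465c000001fff9150000020014fa0000020110bc000002019f96000001fff1d1]

def L7 : List ℕ := [nat_lit 0x1c96a0000000266f6000000010f7500000001451400000001f967000000024285,
 nat_lit 0x3c24500000002127d00000001f1970000000279b100000002eb7b000000020000,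
 nat_lit 0x2173300000001ede000000001f7d900000002cfdc000000020000000000020000,
 nat_lit 0x1ea64000000022c99000000023215000000020000000000020000000000020000,
 nat_lit 0x1b88d000000022b43000000020000000000020000000000020000000000020000,
 nat_lit 0x234ae000000020000000000020000000000020000000000020000000000020000]

theorem psd7 : psdCk 48 26 18 16 (Nat.mul 6 1) 65536 131072 33554432 858481 U7 L7 = true := by decide +kernel

def b7 : BD := ⟨1, U7, [0x10101010101010101010101010101010101010101010101], [0x0], [[0xc000000003000000000c000000003000000000c000000003000000000c000000003000000000c000000003000000000c000000003000000000c000000003000000000c000000003000000000c000000003000000000c000000003000000000c000000003000000000c0000000030]], [[0x0]], [[0x6000000001800000000600000000180000000060000000018000000006000000001800000000600000000180000000060000000018000000006000000001800000000600000000180000000060000000018000000006000000001800000000600000000180000000060000000018]], [[0x0]]⟩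

theorem bk7 : b7.ck 24 G.nu 38 7 = true := by decide +kernel

end Vale.Agent.P355.H947.UD.AA
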