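import Vale.Agent.P355.H947.UD.AA.D

namespace Vale.Agent.P355.H947.UD.AA

open Vale.Agent.P355 Vale.Agent.P355.H147 Vale.Agent.P355.H998.E

theorem c0 : CX 4 0 0 D cls mv 0 (Nat.add 0 6) := CX.ck 0 6 (by decide +kernel)

theorem cm0 : CX 4 0 0 D cls mv 0 6 := c0

end Vale.Agent.P355.H947.UD.AA
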