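import Vale.Agent.P355.H147.TyRun

namespace Vale.Agent.P355.H947.UD.AA

open Vale.Agent.P355 Vale.Agent.P355.H147

def P0 : ℕ := nat_lit 0x268a6c451000000013d9ff8cb00000004af5675a400000004af22d08c000000026fd53c88000000026f6abca0000000096003eee000000004dffd855000000004b15a677c00000004b15a325400000002704caea400000002710d29a400000006f369cec400000009c089f2800000000e3ffc02c800000007083a82be00000007085ce00800000003a834be9a00000003a825c9ce00000007085cb6200000000708486af200000003a828415a00000003a846c1d600000004aff52a5000000004aff19468000000026ff51748000000026ff335740000000257f6e9a10000000257deb2c00000000137e1b16a000000013804607d0000000257d2f4ff0000000257faf4da0000000137f6a10e0000000137e56d35000000048001587000000009c02687400000000e40078648000000025880331c00000002587e1df1000000013844434e000000013852d15100000004b01e026400000004b01020fc00000002701099980000000270181878000000047fff56b000000009bfcf5e600000000e3fee6bb8000000012c7c08f0000000012cbdb9c5800000009c63b647800000009c4a3d84000000012cb29138800000012c83dd5c000000009c40b3c0000000009c906f5e80000004800af23000000009bff085600000000e3ff256f000000005c99d22b600000002a0d0f3ce0000000e3fff84880000000721675a460000000000000000000000000000000000000000000000015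

def Q0 : ℕ := nat_lit 0x2731f0fc2000000014853c84000000004af25219c00000004af58c6b4000000026f69649c000000026fd3e484000000095ffb8de000000004e000000000000004b140666400000004b1409b8c0000000271009b24000000027040202400000006e8a0fe8f00000009c01e03300000000e400000000000000708627a7a0000000708401d3000000003a824d14000000003a833c60c0000000708404718000000070854924600000003a8314e8000000003a812ce0400000004aff456b800000004aff7eca0000000026ffce494000000026ffec6680000000257db418c0000000257f3786d000000013804aa810000000137e1fb6e0000000257ff362e0000000257d736530000000137efbadd000000013800eeb6000000048011eb3000000009c011eb300000000e400000000000000258776e0b0000000258798336000000013848d84500000001383a4a4200000004b009bd2400000004b0179e8c000000027007ae440000000270002f64000000047fe8588000000009bfe858800000000e40000000000000012cbf9736000000012c7de660800000009c4b894d800000009c650211000000012c890eed800000012cb7c2ca000000009c6e8bd5000000009c1ed036800000047fed508000000009bfed50800000000e4000000000000005becf725100000002a09e03e20000000e40000000000000072164ea2e0000000000000000000000000000000000000000000000015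

end Vale.Agent.P355.H947.UD.AA
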