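import Vale.Agent.P355.H947.UD.AA.D
import Vale.Agent.P355.H947.UD.AA.B0
import Vale.Agent.P355.H947.UD.AA.B1
import Vale.Agent.P355.H947.UD.AA.B2
import Vale.Agent.P355.H947.UD.AA.B3
import Vale.Agent.P355.H947.UD.AA.B4
import Vale.Agent.P355.H947.UD.AA.B5
import Vale.Agent.P355.H947.UD.AA.B6
import Vale.Agent.P355.H947.UD.AA.B7
import Vale.Agent.P355.H147.Acc3

namespace Vale.Agent.P355.H947.UD.AA

open Vale.Agent.P355 Vale.Agent.P355.H147 Vale.Agent.P355.H998.E Vale.Agent.P355.H129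

noncomputable def t : TyE := ⟨RcE 0 40, 24, 48, 38, 7, 26, 33554432, 64, BP, 1, [b0, b1, b2, b3, b4, b5, b6, b7], EL⟩

theorem bok : BOk 24 G.nu 6 38 7 33554432 48 26 [b0, b1, b2, b3, b4, b5, b6, b7] :=
  BOk.cons (BOk.cons (BOk.cons (BOk.cons (BOk.cons (BOk.cons (BOk.cons (BOk.cons (BOk.nil _ _ _ _ _ _ _ _) bk7 psd7) bk6 psd6) bk5 psd5) bk4 psd4) bk3 psd3) bk2 psd2) bk1 psd1) bk0 psd0

theorem tok : t.Ok G.nu 6 :=
  ⟨bok, by decide +kernel, fun e => RcE_le 0 40 e⟩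

end Vale.Agent.P355.H947.UD.AA
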